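import Vale.Agent.P092.H213.Rp.Defs
import Vale.Agent.P092.H15.HMAbs
import Mathlib.LinearAlgebra.Eigenspace.Zero

/-!
P092, project RP (helper821): the topological half of the Howe–Moore property of the group generated
by the exponentials of the nilpotent elements of a simple Lie algebra over a local field.
-/

set_option linter.all false

open Filter Topology Module

namespace Vale.Agent.P092.H821.Rp

open Vale.Agent.P092.H213.Rp
open Vale.Agent.P092.H933 (Len)

section alg

variable {k L : Type} [Field k]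

theorem ex_zero [AddCommGroup L] [Module k L] : ex (0 : Module.End k L) = 1 := by
  rw [ex, Finset.sum_eq_single 0]
  · simp
  · intro i _ hi
    rw [zero_pow hi, smul_zero]
  · intro h
    exact absurd (Finset.mem_range.2 (Nat.succ_pos _)) h

theorem conj_pow {A : Type*} [Monoid A] {T S : A} (h : S * T = 1) (h' : T * S = 1) (X : A) (i : ℕ) :
    T * X ^ i * S = (T * X * S) ^ i := by
  induction i with
  | zero => simp [h']
  | succ i ih =>
    calc T * X ^ (i + 1) * S = T * X ^ i * (1 * X) * S := by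
          rw [pow_succ, one_mul, mul_assoc T (X ^ i) X]
      _ = T * X ^ i * ((S * T) * X) * S := by rw [h]
      _ = (T * X ^ i * S) * (T * X * S) := by simp only [mul_assoc]
      _ = _ := by rw [ih, pow_succ]

theorem ex_conj [AddCommGroup L] [Module k L] {T S : Module.End k L} (h : S * T = 1)
    (h' : T * S = 1) (X : Module.End k L) : T * ex X * S = ex (T * X * S) := by
  simp only [ex, Finset.mul_sum, Finset.sum_mul]
  refine Finset.sum_congr rfl fun i _ => ?_
  rw [mul_smul_comm, smul_mul_assoc, conj_pow h h']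

variable [LieRing L] [LieAlgebra k L]

theorem eu_zero : eu k (0 : L) = 1 := by
  rw [eu, map_zero, ex_zero]

theorem ad_conj {T S : Module.End k L} (h : S * T = 1) (h' : T * S = 1)
    (hT : ∀ x y : L, T ⁅x, y⁆ = ⁅T x, T y⁆) (x : L) :
    T * LieAlgebra.ad k L x * S = LieAlgebra.ad k L (T x) := by
  ext y
  have e : T (S y) = y := by
    have := congrArg (fun A : Module.End k L => A y) h'
    simpa using this
  simp only [Module.End.mul_apply, LieAlgebra.ad_apply, hT, e]

theorem eu_conj {T S : Module.End k L} (h : S * T = 1) (h' : T * S = 1)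
    (hT : ∀ x y : L, T ⁅x, y⁆ = ⁅T x, T y⁆) (x : L) : T * eu k x * S = eu k (T x) := by
  rw [eu, ex_conj h h', ad_conj h h' hT, eu]

theorem nil_conj {T S : Module.End k L} (h : S * T = 1) (h' : T * S = 1)
    (hT : ∀ x y : L, T ⁅x, y⁆ = ⁅T x, T y⁆) {x : L} (hx : Nil k x) : Nil k (T x) := by
  obtain ⟨i, hi⟩ := hx
  refine ⟨i, ?_⟩
  rw [← ad_conj h h' hT, ← conj_pow h h', hi, mul_zero, zero_mul]

theorem nil_smul {x : L} (hx : Nil k x) (t : k) : Nil k (t • x) := by
  obtain ⟨i, hi⟩ := hx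
  exact ⟨i, by rw [map_smul, smul_pow, hi, smul_zero]⟩

theorem nil_pow [Module.Finite k L] {x : L} (hx : Nil k x) :
    LieAlgebra.ad k L x ^ finrank k L = 0 := by
  have h := IsNilpotent.charpoly_eq_X_pow_finrank hx
  have h2 := (LieAlgebra.ad k L x).aeval_self_charpoly
  rw [h] at h2
  simpa using h2

theorem end_ext {h : L} (hs : Spl k h) {T S : Module.End k L}
    (he : ∀ (i : ℤ), ∀ z ∈ egs k h i, T z = S z) : T = S := by
  have h1 : (⊤ : Submodule k L) ≤ LinearMap.eqLocus T S := by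
    rw [← hs]
    refine iSup_le fun i z hz => ?_
    exact he i z hz
  ext z
  exact h1 (Submodule.mem_top : z ∈ (⊤ : Submodule k L))

end alg

section top

variable {k : Type} [NontriviallyNormedField k] {L : Type} [LieRing L] [LieAlgebra k L] {n : ℕ}
  (b : Basis (Fin n) k L)

theorem eqf_apply (T : Module.End k L) (v : L) :
    b.equivFun (T v) = (LinearMap.toMatrix b b T).mulVec (b.equivFun v) := by
  have := LinearMap.toMatrix_mulVec_repr b b T v
  ext i
  rw [Basis.equivFun_apply]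
  exact (congrFun this i).symm

theorem tendsto_apply {ι : Type*} {l : Filter ι} {T : ι → Module.End k L} {T₀ : Module.End k L}
    (h : Tendsto (fun i => LinearMap.toMatrix b b (T i)) l (𝓝 (LinearMap.toMatrix b b T₀))) (v : L) :
    Tendsto (fun i => b.equivFun (T i v)) l (𝓝 (b.equivFun (T₀ v))) := by
  simp only [eqf_apply b]
  have hc : Continuous fun M : Matrix (Fin n) (Fin n) k => M.mulVec (b.equivFun v) := by
    fun_prop
  exact (hc.tendsto _).comp h

theorem tendsto_mat {ι : Type*} {l : Filter ι} {T : ι → Module.End k L} {T₀ : Module.End k L}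
    (h : ∀ v, Tendsto (fun i => b.equivFun (T i v)) l (𝓝 (b.equivFun (T₀ v)))) :
    Tendsto (fun i => LinearMap.toMatrix b b (T i)) l (𝓝 (LinearMap.toMatrix b b T₀)) := by
  refine tendsto_pi_nhds.2 fun p => tendsto_pi_nhds.2 fun q => ?_
  have h1 := tendsto_pi_nhds.1 (h (b q)) p
  simpa only [LinearMap.toMatrix_apply, Basis.equivFun_apply] using h1

theorem tendsto_ad {ι : Type*} {l : Filter ι} {v : ι → L} {v₀ : L}
    (h : Tendsto (fun i => b.equivFun (v i)) l (𝓝 (b.equivFun v₀))) :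
    Tendsto (fun i => LinearMap.toMatrix b b (LieAlgebra.ad k L (v i))) l
      (𝓝 (LinearMap.toMatrix b b (LieAlgebra.ad k L v₀))) := by
  let φ : (Fin n → k) →ₗ[k] Matrix (Fin n) (Fin n) k :=
    (LinearMap.toMatrix b b).toLinearMap ∘ₗ (LieAlgebra.ad k L : L →ₗ[k] Module.End k L) ∘ₗ
      b.equivFun.symm.toLinearMap
  have hφ : Continuous φ := LinearMap.continuous_on_pi φ
  have e : ∀ w : L, φ (b.equivFun w) = LinearMap.toMatrix b b (LieAlgebra.ad k L w) := by
    intro w
    simp [φ]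
  have := (hφ.tendsto _).comp h
  rw [e] at this
  refine this.congr fun i => ?_
  exact e _

theorem tendsto_pow {ι : Type*} {l : Filter ι} {T : ι → Module.End k L} {T₀ : Module.End k L}
    (h : Tendsto (fun i => LinearMap.toMatrix b b (T i)) l (𝓝 (LinearMap.toMatrix b b T₀))) (j : ℕ) :
    Tendsto (fun i => LinearMap.toMatrix b b (T i ^ j)) l (𝓝 (LinearMap.toMatrix b b (T₀ ^ j))) := by
  simp only [← LinearMap.toMatrix_pow]
  exact h.pow j

theorem tendsto_ex {ι : Type*} {l : Filter ι} {T : ι → Module.End k L} {T₀ : Module.End k L}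
    (h : Tendsto (fun i => LinearMap.toMatrix b b (T i)) l (𝓝 (LinearMap.toMatrix b b T₀))) :
    Tendsto (fun i => LinearMap.toMatrix b b (ex (T i))) l (𝓝 (LinearMap.toMatrix b b (ex T₀))) := by
  simp only [ex, map_sum, map_smul]
  exact tendsto_finset_sum _ fun j _ => (tendsto_pow b h j).const_smul _

theorem tendsto_eu {ι : Type*} {l : Filter ι} {v : ι → L} {v₀ : L}
    (h : Tendsto (fun i => b.equivFun (v i)) l (𝓝 (b.equivFun v₀))) :
    Tendsto (fun i => LinearMap.toMatrix b b (eu k (v i))) l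
      (𝓝 (LinearMap.toMatrix b b (eu k v₀))) :=
  tendsto_ex b (tendsto_ad b h)

end top

section grp

variable {k : Type} [NontriviallyNormedField k] {L : Type} [LieRing L] [LieAlgebra k L] {n : ℕ}
  {b : Basis (Fin n) k L} {G : Type} [Group G] [TopologicalSpace G] {ρ : G →* Module.End k L}

theorem rinv (ρ : G →* Module.End k L) (g : G) : ρ g⁻¹ * ρ g = 1 := by
  rw [← map_mul, inv_mul_cancel, map_one]

theorem rinv' (ρ : G →* Module.End k L) (g : G) : ρ g * ρ g⁻¹ = 1 := by
  rw [← map_mul, mul_inv_cancel, map_one]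

theorem rho_inj (hρ : RP b ρ) {g g' : G} (h : ρ g = ρ g') : g = g' :=
  hρ.emb.injective (by show LinearMap.toMatrix b b (ρ g) = LinearMap.toMatrix b b (ρ g'); rw [h])

theorem tendsto_iff (hρ : RP b ρ) {ι : Type*} {l : Filter ι} {γ : ι → G} {g : G} :
    Tendsto γ l (𝓝 g) ↔ Tendsto (fun i => LinearMap.toMatrix b b (ρ (γ i))) l
      (𝓝 (LinearMap.toMatrix b b (ρ g))) :=
  hρ.emb.isInducing.tendsto_nhds_iff

theorem eu_rho (hρ : RP b ρ) (g : G) (x : L) : ρ g * eu k x * ρ g⁻¹ = eu k (ρ g x) :=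
  eu_conj (rinv ρ g) (rinv' ρ g) (hρ.lie g) x

theorem nil_rho (hρ : RP b ρ) (g : G) {x : L} (hx : Nil k x) : Nil k (ρ g x) :=
  nil_conj (rinv ρ g) (rinv' ρ g) (hρ.lie g) hx

/-- elements with exponentials tending to `1` -/
theorem tendsto_one_of (hρ : RP b ρ) {ι : Type*} {l : Filter ι} {γ : ι → G} {v : ι → L}
    (h1 : ∀ i, ρ (γ i) = eu k (v i)) (h : Tendsto (fun i => b.equivFun (v i)) l (𝓝 0)) :
    Tendsto γ l (𝓝 1) := by
  rw [tendsto_iff hρ, map_one, ← eu_zero (k := k) (L := L)]
  simp only [h1]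
  refine tendsto_eu b ?_
  rw [map_zero]
  exact h

/-- along an ultrafilter which tends to infinity the orbit of some nilpotent element is unbounded -/
theorem exists_unb [ProperSpace k] (hρ : RP b ρ)
    (span : Submodule.span k {x : L | Nil k x} = ⊤) {U : Ultrafilter G}
    (hU : (U : Filter G) ≤ cocompact G) :
    ∃ x : L, Nil k x ∧ ∀ R : ℝ, ∀ᶠ g in (U : Filter G), R < ‖b.equivFun (ρ g x)‖ := by
  by_contra hcon
  push Not at hcon
  have h1 : ∀ x : L, Nil k x → ∃ R : ℝ, ∀ᶠ g in (U : Filter G), ‖b.equivFun (ρ g x)‖ ≤ R := by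
    intro x hx
    exact hcon x hx
  let S : Submodule k L :=
    { carrier := {x | ∃ R : ℝ, ∀ᶠ g in (U : Filter G), ‖b.equivFun (ρ g x)‖ ≤ R}
      add_mem' := by
        rintro x y ⟨R, hR⟩ ⟨R', hR'⟩
        refine ⟨R + R', ?_⟩
        filter_upwards [hR, hR'] with g h1 h2
        rw [map_add, map_add]
        exact (norm_add_le _ _).trans (add_le_add h1 h2)
      zero_mem' := ⟨0, Eventually.of_forall fun g => by simp⟩
      smul_mem' := by
        rintro c x ⟨R, hR⟩
        refine ⟨‖c‖ * R, ?_⟩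
        filter_upwards [hR] with g h1
        rw [map_smul, map_smul, norm_smul]
        exact mul_le_mul_of_nonneg_left h1 (norm_nonneg _) }
  have hS : ∀ x : L, x ∈ S := by
    intro x
    have h2 : Submodule.span k {x : L | Nil k x} ≤ S := Submodule.span_le.2 fun x hx => h1 x hx
    rw [span] at h2
    exact h2 Submodule.mem_top
  choose R hR using fun j => hS (b j)
  have h3 : ∀ᶠ g in (U : Filter G), ∀ j, ‖b.equivFun (ρ g (b j))‖ ≤ R j :=
    eventually_all.2 hR
  set K : Set (Matrix (Fin n) (Fin n) k) :=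
    Set.pi Set.univ fun i => Set.pi Set.univ fun j => Metric.closedBall (0 : k) (R j) with hK
  have hKc : IsCompact K := isCompact_univ_pi fun i => isCompact_univ_pi fun j =>
    isCompact_closedBall _ _
  have hc : IsCompact ((fun g => LinearMap.toMatrix b b (ρ g)) ⁻¹' K) :=
    hρ.emb.isCompact_preimage hKc
  have h4 := hU hc.compl_mem_cocompact
  obtain ⟨g, hg, hg'⟩ := (h3.and h4).exists
  apply hg'
  intro i _ j _
  rw [mem_closedBall_zero_iff]
  show ‖LinearMap.toMatrix b b (ρ g) i j‖ ≤ R j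
  rw [LinearMap.toMatrix_apply]
  exact (norm_le_pi_norm (b.equivFun (ρ g (b j))) i).trans (hg j)

/-- the limit of the rescaled orbit -/
theorem exists_lim [ProperSpace k] {U : Ultrafilter G} {v : G → L}
    (hv : ∀ R : ℝ, ∀ᶠ g in (U : Filter G), R < ‖b.equivFun (v g)‖) :
    ∃ (d : G → k) (y : L), y ≠ 0 ∧ Tendsto d U (𝓝 0) ∧
      Tendsto (fun g => b.equivFun (d g • v g)) U (𝓝 (b.equivFun y)) := by
  obtain ⟨c, hc⟩ := NormedField.exists_one_lt_norm k
  have h1 : ∀ g, ∃ d : k, b.equivFun (v g) ≠ 0 → ‖d • b.equivFun (v g)‖ < 1 ∧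
      1 / ‖c‖ ≤ ‖d • b.equivFun (v g)‖ := by
    intro g
    by_cases h : b.equivFun (v g) = 0
    · exact ⟨0, fun h' => absurd h h'⟩
    · obtain ⟨d, -, h2, h3, -⟩ := rescale_to_shell hc one_pos h
      exact ⟨d, fun _ => ⟨h2, h3⟩⟩
  choose d hd using h1
  have h0 : ∀ᶠ g in (U : Filter G), b.equivFun (v g) ≠ 0 := by
    filter_upwards [hv 0] with g hg
    exact norm_pos_iff.1 hg
  have h2 : ∀ᶠ g in (U : Filter G), b.equivFun (d g • v g) ∈
      Metric.closedBall (0 : Fin n → k) 1 := by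
    filter_upwards [h0] with g hg
    rw [mem_closedBall_zero_iff, map_smul]
    exact (hd g hg).1.le
  obtain ⟨w, -, hw⟩ := (isCompact_closedBall (0 : Fin n → k) 1).ultrafilter_le_nhds
    (U.map fun g => b.equivFun (d g • v g)) (tendsto_principal.2 h2)
  have hw' : Tendsto (fun g => b.equivFun (d g • v g)) U (𝓝 w) := hw
  have h3 : 1 / ‖c‖ ≤ ‖w‖ := by
    refine ge_of_tendsto hw'.norm ?_
    filter_upwards [h0] with g hg
    rw [map_smul]
    exact (hd g hg).2
  refine ⟨d, b.equivFun.symm w, ?_, ?_, ?_⟩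
  · intro hy
    have hw0 : w = 0 := by
      have := congrArg b.equivFun hy
      rwa [LinearEquiv.apply_symm_apply, map_zero] at this
    rw [hw0, norm_zero] at h3
    have : 0 < 1 / ‖c‖ := by positivity
    linarith
  · rw [tendsto_zero_iff_norm_tendsto_zero]
    rw [Metric.tendsto_nhds]
    intro ε hε
    filter_upwards [h0, hv (1 / ε)] with g hg hg'
    rw [Real.dist_eq, sub_zero, abs_of_nonneg (norm_nonneg _)]
    have h4 := (hd g hg).1
    rw [norm_smul] at h4
    have h5 : 1 < ‖b.equivFun (v g)‖ * ε := by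
      rw [div_lt_iff₀ hε] at hg'
      exact hg'
    by_contra h6
    push Not at h6
    have h7 : ε * ‖b.equivFun (v g)‖ ≤ ‖d g‖ * ‖b.equivFun (v g)‖ :=
      mul_le_mul_of_nonneg_right h6 (norm_nonneg _)
    nlinarith
  · rw [LinearEquiv.apply_symm_apply]
    exact hw'

/-- limits of nilpotent elements are nilpotent -/
theorem nil_lim [Module.Finite k L] {U : Ultrafilter G} {v : G → L} (hv : ∀ g, Nil k (v g)) {y : L}
    (h : Tendsto (fun g => b.equivFun (v g)) U (𝓝 (b.equivFun y))) : Nil k y := by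
  refine ⟨finrank k L, ?_⟩
  have h1 := tendsto_pow b (tendsto_ad b h) (finrank k L)
  have h2 : (fun g => LinearMap.toMatrix b b (LieAlgebra.ad k L (v g) ^ finrank k L)) =
      fun _ => 0 := by
    funext g
    rw [nil_pow (hv g), map_zero]
  rw [h2] at h1
  have h3 := tendsto_nhds_unique tendsto_const_nhds h1
  exact (LinearMap.toMatrix b b).injective (by rw [← h3, map_zero])

/-- the input from `sl_2` -/
def Jm (k L : Type) [Field k] [LieRing L] [LieAlgebra k L] : Prop :=
  ∀ x : L, x ≠ 0 → Nil k x → ∃ h y : L, h ≠ 0 ∧ Nil k y ∧ Spl k h ∧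
    ∀ t : k, t ≠ 0 → ∀ i : ℤ, ∀ z ∈ egs k h i,
      (eu k (t • x) * eu k (-(t⁻¹ • y)) * eu k (t • x) * (eu k (-x) * eu k y * eu k (-x))) z =
        t ^ i • z

/-- the input of parabolics -/
def Gen (k : Type) [Field k] {L : Type} [LieRing L] [LieAlgebra k L] {G : Type} [Group G]
    (ρ : G →* Module.End k L) : Prop :=
  ∀ h : L, Spl k h → h ≠ 0 → Subgroup.closure {g : G | ∃ x, (x ∈ egS k h (Set.Ioi 0) ∨
    x ∈ egS k h (Set.Iio 0)) ∧ ρ g = eu k x} = ⊤

theorem egS_ind {h : L} {S : Set ℤ} {P : L → Prop} (h0 : P 0) (ha : ∀ x y, P x → P y → P (x + y))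
    (he : ∀ i ∈ S, ∀ z ∈ egs k h i, P z) : ∀ z ∈ egS k h S, P z := by
  intro z hz
  let T : AddSubmonoid L :=
    { carrier := {x | P x}
      add_mem' := fun {x y} hx hy => ha x y hx hy
      zero_mem' := h0 }
  refine Submodule.iSup_induction (fun i : ℤ => ⨆ _ : i ∈ S, egs k h i) (motive := P) hz
    (fun i x hx => ?_) h0 ha
  by_cases hi : i ∈ S
  · rw [iSup_pos hi] at hx
    exact he i hi x hx
  · rw [iSup_neg hi] at hx
    rw [(Submodule.mem_bot k).1 hx]
    exact h0

/-- **The Howe–Moore property** from the action of the torus of an `sl_2` and the generation by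
opposite horospherical groups. -/
theorem hmg_of [ProperSpace k] (hρ : RP b ρ) (span : Submodule.span k {x : L | Nil k x} = ⊤)
    (jm : Jm k L) (gen : Gen k ρ) : H15.HMG G := by
  haveI : Module.Finite k L := Module.Finite.of_basis b
  classical
  intro U hU f hf hctr
  -- the elements of the group
  have hu0 : ∀ x : L, ∃ g : G, Nil k x → ρ g = eu k x := by
    intro x
    by_cases hx : Nil k x
    · obtain ⟨g, hg⟩ := hρ.full x hx
      exact ⟨g, fun _ => hg⟩
    · exact ⟨1, fun h => absurd h hx⟩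
  choose u hu using hu0
  -- the limit
  obtain ⟨x, hx, hunb⟩ := exists_unb hρ span hU
  obtain ⟨d, y, hy, hd, hlim⟩ := exists_lim (b := b) (v := fun g => ρ g x) hunb
  have hyn : Nil k y := nil_lim (b := b) (U := U) (v := fun g => d g • ρ g x)
    (fun g => nil_smul (nil_rho hρ g hx) _) hlim
  have hfy : ∀ s : k, f (u (s • y)) = 0 := by
    intro s
    refine hctr _ ⟨fun g => g * u (s • d g • x) * g⁻¹, ?_, ?_⟩
    · rw [tendsto_iff hρ, hu _ (nil_smul hyn s)]
      have e : ∀ g, ρ (g * u (s • d g • x) * g⁻¹) = eu k (s • d g • ρ g x) := by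
        intro g
        rw [map_mul, map_mul, hu _ (nil_smul (nil_smul hx _) _), eu_rho hρ, map_smul, map_smul]
      simp only [e]
      refine tendsto_eu b ?_
      simp only [map_smul] at hlim ⊢
      exact hlim.const_smul s
    · have e : ∀ g : G, g⁻¹ * (g * u (s • d g • x) * g⁻¹) * g = u (s • d g • x) := by
        intro g; group
      simp only [e]
      refine tendsto_one_of hρ (v := fun g => s • d g • x)
        (fun g => hu _ (nil_smul (nil_smul hx _) _)) ?_
      simp only [map_smul]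
      have h1 : Tendsto (fun g => s • d g • b.equivFun x) U (𝓝 (s • (0 : k) • b.equivFun x)) :=
        (hd.smul_const _).const_smul s
      rwa [zero_smul, smul_zero] at h1
  obtain ⟨h, z, hh, hz, hs, ha⟩ := jm y hy hyn
  obtain ⟨c₀, hc₀⟩ := NormedField.exists_one_lt_norm k
  have hc0 : c₀ ≠ 0 := by
    intro h0
    rw [h0, norm_zero] at hc₀
    linarith
  -- `u (t z) → 1`
  have hz1 : ∀ {t : ℕ → k}, Tendsto t atTop (𝓝 0) →
      Tendsto (fun m => f (u (-((t m) • z)))) atTop (𝓝 0) := by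
    intro t ht
    refine hf.cont.comp (tendsto_one_of hρ (v := fun m => -((t m) • z)) (fun m => hu _ ?_) ?_)
    · rw [← neg_smul]
      exact nil_smul hz _
    · simp only [map_neg, map_smul]
      have h1 : Tendsto (fun m => -((t m) • b.equivFun z)) atTop
          (𝓝 (-((0 : k) • b.equivFun z))) := (ht.smul_const _).neg
      rwa [zero_smul, neg_zero] at h1
  -- the elements `n t` and `a t`
  set nn : k → G := fun t => u (t • y) * u (-(t⁻¹ • z)) * u (t • y) with hnn
  set mm : G := u (-y) * u z * u (-y) with hmm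
  have hyt : ∀ t : k, ρ (u (t • y)) = eu k (t • y) := fun t => hu _ (nil_smul hyn t)
  have hzt : ∀ t : k, ρ (u (-(t⁻¹ • z))) = eu k (-(t⁻¹ • z)) := fun t => hu _ (by
    rw [← neg_smul]; exact nil_smul hz _)
  have hmy : ρ (u (-y)) = eu k (-y) := hu _ (by
    have := nil_smul hyn (-1)
    rwa [neg_smul, one_smul] at this)
  have hact : ∀ t : k, t ≠ 0 → ∀ i : ℤ, ∀ w ∈ egs k h i, ρ (nn t * mm) w = t ^ i • w := by
    intro t ht i w hw
    rw [← ha t ht i w hw, hnn, hmm]
    simp only [map_mul, hyt, hzt, hmy, hu z hz]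
  have hfn : ∀ t : k, f (nn t) ≤ f (u (-(t⁻¹ • z))) := by
    intro t
    have h1 := hf.mul (u (t • y) * u (-(t⁻¹ • z))) (u (t • y))
    have h2 := hf.mul (u (t • y)) (u (-(t⁻¹ • z)))
    rw [hfy t] at h1 h2
    simp only [hnn]
    linarith
  have hactinv : ∀ t : k, t ≠ 0 → ∀ i : ℤ, ∀ w ∈ egs k h i,
      ρ (nn t * mm)⁻¹ w = t ^ (-i) • w := by
    intro t ht i w hw
    have h1 := congrArg (ρ (nn t * mm)⁻¹) (hact t ht i w hw)
    rw [map_smul] at h1
    have h2 : ρ (nn t * mm)⁻¹ (ρ (nn t * mm) w) = w := by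
      have := congrArg (fun A : Module.End k L => A w) (rinv ρ (nn t * mm))
      simpa using this
    rw [h2] at h1
    have h3 : t ^ (-i) • w = t ^ (-i) • t ^ i • ρ (nn t * mm)⁻¹ w := congrArg (fun v => t ^ (-i) • v) h1
    rw [h3, smul_smul, ← zpow_add₀ ht, neg_add_cancel, zpow_zero, one_smul]
  -- `f` vanishes on the torus
  have hfa : ∀ c : k, c ≠ 0 → f (nn c * mm) = 0 := by
    intro c hc
    have e : ∀ t : k, t ≠ 0 → nn c * mm = nn (c * t) * (nn t)⁻¹ := by
      intro t ht
      have e1 : nn (c * t) * (nn t)⁻¹ = (nn (c * t) * mm) * (nn t * mm)⁻¹ := by group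
      rw [e1]
      apply rho_inj hρ
      refine end_ext hs fun i w hw => ?_
      rw [hact c hc i w hw, map_mul, Module.End.mul_apply, hactinv t ht i w hw, map_smul,
        hact (c * t) (mul_ne_zero hc ht) i w hw, smul_smul, mul_zpow, mul_comm, mul_assoc,
        ← zpow_add₀ ht, add_neg_cancel, zpow_zero, mul_one]
    set t : ℕ → k := fun m => c₀ ^ m with ht
    have ht0 : ∀ m, t m ≠ 0 := fun m => pow_ne_zero m hc0
    have hle : ∀ m, f (nn c * mm) ≤ f (u (-((c * t m)⁻¹ • z))) + f (u (-((t m)⁻¹ • z))) := by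
      intro m
      rw [e (t m) (ht0 m)]
      have h1 := hf.mul (nn (c * t m)) (nn (t m))⁻¹
      rw [hf.inv] at h1
      linarith [hfn (c * t m), hfn (t m)]
    have t0 : Tendsto (fun m => (t m)⁻¹) atTop (𝓝 0) := by
      have h1 : ∀ m, (t m)⁻¹ = (c₀⁻¹) ^ m := fun m => by rw [ht, inv_pow]
      simp only [h1]
      refine tendsto_pow_atTop_nhds_zero_of_norm_lt_one ?_
      rw [norm_inv]
      exact inv_lt_one_of_one_lt₀ hc₀
    have t1 : Tendsto (fun m => (c * t m)⁻¹) atTop (𝓝 0) := by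
      have h1 : ∀ m, (c * t m)⁻¹ = c⁻¹ * (t m)⁻¹ := fun m => by rw [mul_inv]
      simp only [h1]
      have := t0.const_mul c⁻¹
      rwa [mul_zero] at this
    have h2 := (hz1 t1).add (hz1 t0)
    rw [add_zero] at h2
    exact le_antisymm (ge_of_tendsto' h2 hle) (hf.nonneg _)
  -- Mautner
  have hmau : ∀ (c : ℕ → k), (∀ m, c m ≠ 0) → ∀ w : L,
      Tendsto (fun m => b.equivFun (ρ (nn (c m) * mm) w)) atTop (𝓝 0) → ∀ g : G, ρ g = eu k w →
      f g = 0 := by
    intro c hc w hw g hg
    have h1 : g ∈ hf.ker := by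
      refine hf.mem_of_contract (d := fun m => nn (c m) * mm) (fun m => hfa _ (hc m)) ?_
      refine tendsto_one_of hρ (v := fun m => ρ (nn (c m) * mm) w) (fun m => ?_) hw
      rw [map_mul, map_mul, hg, eu_rho hρ]
    exact h1
  have hpos : ∀ w ∈ egS k h (Set.Ioi 0),
      Tendsto (fun m : ℕ => b.equivFun (ρ (nn ((c₀ ^ m)⁻¹) * mm) w)) atTop (𝓝 0) := by
    refine egS_ind ?_ ?_ ?_
    · simp
    · intro w w' h1 h2
      simp only [map_add]
      have := h1.add h2
      rwa [add_zero] at this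
    · intro i hi w hw
      have h1 : ∀ m : ℕ, b.equivFun (ρ (nn ((c₀ ^ m)⁻¹) * mm) w) =
          ((c₀⁻¹) ^ i) ^ m • b.equivFun w := by
        intro m
        rw [hact _ (inv_ne_zero (pow_ne_zero m hc0)) i w hw, map_smul]
        congr 1
        rw [← inv_pow, ← zpow_natCast, ← zpow_natCast, ← zpow_mul, ← zpow_mul, mul_comm]
      simp only [h1]
      have h2 : ‖(c₀⁻¹) ^ i‖ < 1 := by
        rw [norm_zpow, norm_inv, inv_zpow]
        exact inv_lt_one_of_one_lt₀ (one_lt_zpow₀ hc₀ hi)
      have h3 := (tendsto_pow_atTop_nhds_zero_of_norm_lt_one h2).smul_const (b.equivFun w)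
      rwa [zero_smul] at h3
  have hneg : ∀ w ∈ egS k h (Set.Iio 0),
      Tendsto (fun m : ℕ => b.equivFun (ρ (nn (c₀ ^ m) * mm) w)) atTop (𝓝 0) := by
    refine egS_ind ?_ ?_ ?_
    · simp
    · intro w w' h1 h2
      simp only [map_add]
      have := h1.add h2
      rwa [add_zero] at this
    · intro i hi w hw
      have h1 : ∀ m : ℕ, b.equivFun (ρ (nn (c₀ ^ m) * mm) w) =
          (c₀ ^ i) ^ m • b.equivFun w := by
        intro m
        rw [hact _ (pow_ne_zero m hc0) i w hw, map_smul]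
        congr 1
        rw [← zpow_natCast, ← zpow_natCast, ← zpow_mul, ← zpow_mul, mul_comm]
      simp only [h1]
      have h2 : ‖c₀ ^ i‖ < 1 := by
        rw [norm_zpow]
        exact zpow_lt_one_of_neg₀ hc₀ hi
      have h3 := (tendsto_pow_atTop_nhds_zero_of_norm_lt_one h2).smul_const (b.equivFun w)
      rwa [zero_smul] at h3
  have hker : Subgroup.closure {g : G | ∃ x, (x ∈ egS k h (Set.Ioi 0) ∨
      x ∈ egS k h (Set.Iio 0)) ∧ ρ g = eu k x} ≤ hf.ker := by
    rw [Subgroup.closure_le]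
    rintro g ⟨w, hw | hw, hg⟩
    · exact hmau (fun m => (c₀ ^ m)⁻¹) (fun m => inv_ne_zero (pow_ne_zero m hc0)) w (hpos w hw) g hg
    · exact hmau (fun m => c₀ ^ m) (fun m => pow_ne_zero m hc0) w (hneg w hw) g hg
  rw [gen h hs hh] at hker
  intro g
  exact hker (Subgroup.mem_top g)

end grp

end Vale.Agent.P092.H821.Rp
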